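import Vale.Agent.P141.H414.En7

/-!
# P141, line W, squad EN, module EN8: the four roles

`costR_en`: the cost hypothesis `CostR` of any role `i`, pair weight with constant `1`, companions
= three static functions killed outside the alive cells, the faces `a b` uniform and the face `c`
only of bounded energy, from `Pos2` and `CmpSt`.
-/

namespace Vale.Agent.P141.H414

open Finset Vale.Agent.P141.PL Vale.Agent.P141.H48
open Vale.Agent.P141.H315 (dot)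
open Vale.Agent.P141.PL.H315 (cube3 atm Tri)
open Vale.Agent.P141.PL.H318 (ixs a1)
open Vale.Agent.P141.PL.H560 (cbs bx0 cmp)
open Vale.Agent.P141.PL.H321 (t12 t23 u12 u23)
open Vale.Agent.P141.H922 (pw3 wP wP_nonneg)
open Vale.Agent.P141.H347.Tr (CostR cmN CostN cc)

noncomputable section

open scoped Classical

/-! ### Permuted linear forms -/

theorem el_t12 (c p : Pt) : el (t12 c) p = el c (t12 p) := by simp only [el, t12]; ring

theorem el_t23 (c p : Pt) : el (t23 c) p = el c (t23 p) := by simp only [el, t23]; ring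

theorem a1_t12 (c : Pt) (k : ℕ) (q : Pt) (u : Tri) :
    a1 (t12 c) k (q, u) = a1 c k (t12 q, u12 u) := by
  funext s
  unfold a1
  simp only
  rw [← H321.sum_cube_t12]
  refine sum_congr rfl fun y _ => ?_
  rw [el_t12, ← H321.atm_t12, H321.t12_t12]

theorem a1_t23 (c : Pt) (k : ℕ) (q : Pt) (u : Tri) :
    a1 (t23 c) k (q, u) = a1 c k (t23 q, u23 u) := by
  funext s
  unfold a1
  simp only
  rw [← H321.sum_cube_t23]
  refine sum_congr rfl fun y _ => ?_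
  rw [el_t23, ← H321.atm_t23, H321.t23_t23]

theorem USl.t12 {c0 : ℕ} {σ : ℤ} {al : ℕ → ℤ → Prop} {n : ℕ} {c : Pt} {t : ℝ} {f : ℤ → ℝ}
    (h : USl c0 σ al n c t f) : USl c0 σ al n (t12 c) t f := by
  intro k h1 hk s hs q u
  have h2 := h k h1 hk s hs (H321.t12 q) (u12 u)
  rwa [wP_t12, ← a1_t12] at h2

theorem USl.t23 {c0 : ℕ} {σ : ℤ} {al : ℕ → ℤ → Prop} {n : ℕ} {c : Pt} {t : ℝ} {f : ℤ → ℝ}
    (h : USl c0 σ al n c t f) : USl c0 σ al n (t23 c) t f := by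
  intro k h1 hk s hs q u
  have h2 := h k h1 hk s hs (H321.t23 q) (u23 u)
  rwa [wP_t23, ← a1_t23] at h2

/-! ### The slots of the role `i` -/

/-- the face of the slot `p` in the role `i` -/
def jf : Fin 4 → Fin 3 → Fin 4
  | 0 => ![1, 2, 3]
  | 1 => ![0, 2, 3]
  | 2 => ![1, 0, 3]
  | 3 => ![2, 0, 1]

/-- the linear form of the slot `p` in the role `i` -/
def cf : Fin 4 → Fin 3 → Pt
  | 0 => ![fc 1, fc 2, fc 3]
  | 1 => ![fc 0, t12 (fc 2), t12 (fc 3)]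
  | 2 => ![t12 (fc 1), t12 (fc 0), t23 (t12 (t23 (fc 3)))]
  | 3 => ![t12 (t23 (fc 2)), t23 (t12 (t23 (fc 0))), t23 (t12 (t23 (fc 1)))]

/-- the slot `p` in the role `i` -/
def sf (al : ℕ → ℤ → Prop) (f : Fin 4 → ℤ → ℝ) (i : Fin 4) (p : Fin 3) (k : ℕ) (q : Pt) : ℝ :=
  kl al (f (jf i p)) k (el (cf i p) q)

theorem usl_cf {c0 : ℕ} {σ : ℤ} {al : ℕ → ℤ → Prop} {n : ℕ} {t : ℝ} {f : ℤ → ℝ} (i : Fin 4)
    (p : Fin 3) (h : USl c0 σ al n (fc (jf i p)) t f) : USl c0 σ al n (cf i p) t f := by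
  fin_cases i <;> fin_cases p
  · exact h
  · exact h
  · exact h
  · exact h
  · exact USl.t12 h
  · exact USl.t12 h
  · exact USl.t12 h
  · exact USl.t12 h
  · exact USl.t23 (USl.t12 (USl.t23 h))
  · exact USl.t12 (USl.t23 h)
  · exact USl.t23 (USl.t12 (USl.t23 h))
  · exact USl.t23 (USl.t12 (USl.t23 h))

theorem cf_good (i : Fin 4) (p : Fin 3) : (cf i p).1 ≠ 0 ∧ (cf i p).2.1 ≠ 0 ∧ (cf i p).2.2 ≠ 0 ∧
    |(cf i p).1| ≤ 3 ∧ |(cf i p).2.1| ≤ 3 ∧ |(cf i p).2.2| ≤ 3 := by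
  fin_cases i <;> fin_cases p <;> simp [cf, fc, H321.t12, H321.t23]

/-- the companions of the role `i` are its slots -/
theorem cmN_eq (al : ℕ → ℤ → Prop) (f : Fin 4 → ℤ → ℝ) (i : Fin 4) (o : ℤ) (k : ℕ) (w : ℤ) :
    cmN i o (fun k _ j => kl al (f j) k) k w = (sf al f i 0 k, sf al f i 1 k, sf al f i 2 k) := by
  have e : ∀ (j : Fin 4) (x y : ℤ), x = y → kl al (f j) k x = kl al (f j) k y :=
    fun j x y h => by rw [h]
  obtain rfl | rfl | rfl | rfl := H560.fin4 i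
  · refine Prod.ext ?_ (Prod.ext ?_ ?_) <;> rfl
  · refine Prod.ext ?_ (Prod.ext ?_ ?_)
    · rfl
    · exact funext fun q => e 2 _ _ (el_t12 (fc 2) q).symm
    · exact funext fun q => e 3 _ _ (el_t12 (fc 3) q).symm
  · refine Prod.ext ?_ (Prod.ext ?_ ?_)
    · exact funext fun q => e 1 _ _ (el_t12 (fc 1) q).symm
    · exact funext fun q => e 0 _ _ (el_t12 (fc 0) q).symm
    · refine funext fun q => e 3 (el (fc 3) (t23 (t12 (t23 q)))) (el (t23 (t12 (t23 (fc 3)))) q) ?_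
      rw [el_t23, el_t12, el_t23]
  · refine Prod.ext ?_ (Prod.ext ?_ ?_)
    · refine funext fun q => e 2 (el (fc 2) (t23 (t12 q))) (el (t12 (t23 (fc 2))) q) ?_
      rw [el_t12, el_t23]
    · refine funext fun q => e 0 (el (fc 0) (t23 (t12 (t23 q)))) (el (t23 (t12 (t23 (fc 0)))) q) ?_
      rw [el_t23, el_t12, el_t23]
    · refine funext fun q => e 1 (el (fc 1) (t23 (t12 (t23 q)))) (el (t23 (t12 (t23 (fc 1)))) q) ?_
      rw [el_t23, el_t12, el_t23]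

/-- the cost hypothesis of the role `i` is a bound of `cos0` -/
theorem costR_iff {al : ℕ → ℤ → Prop} {f : Fin 4 → ℤ → ℝ} {i : Fin 4} {o : ℤ} {K : ℕ} {P : ℝ}
    {w : ℕ → Pt → Tri → ℝ} : CostR i o K P w (fun k _ j => kl al (f j) k) ↔
      ∀ (x : Pt) (u : Tri), cos0 o K x u (sf al f i 0) (sf al f i 1) (sf al f i 2) ≤
        P * w K x u := by
  unfold CostR CostN cos0
  simp only [cmN_eq]

/-! ### The three positions together -/

theorem prE_comm (ε tA tB eA eB eH : ℝ) : prE ε tA tB eA eB eH = prE ε tB tA eB eA eH := by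
  unfold prE; rw [mul_comm tA, mul_comm eA]

theorem fin3_cases : ∀ pa pb pc : Fin 3, [pa, pb, pc].Nodup →
    (pa = 0 ∧ pb = 1 ∧ pc = 2) ∨ (pa = 1 ∧ pb = 0 ∧ pc = 2) ∨
      (pa = 0 ∧ pb = 2 ∧ pc = 1) ∨ (pa = 2 ∧ pb = 0 ∧ pc = 1) ∨
      (pa = 1 ∧ pb = 2 ∧ pc = 0) ∨ (pa = 2 ∧ pb = 1 ∧ pc = 0) := by
  decide

/-- the cost in any position of the `L²` slot -/
theorem cos0_all {C ε cP : ℝ} (h2 : Pos2 C ε cP) {n : ℕ} {F : Fin 3 → ℕ → Pt → ℝ}
    {pa pb pc : Fin 3} (hd : [pa, pb, pc].Nodup) {ta tb ea eb ec : ℝ}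
    (ha : US n ta ea cP (F pa)) (hb : US n tb eb cP (F pb)) (hc : ES n ec cP (F pc)) {o : ℤ}
    (ho : o = 1 ∨ o = -1) {K : ℕ} (hK : K ≤ n) (x : Pt) (u : Tri) :
    cos0 o K x u (F 0) (F 1) (F 2) ≤ C * prE ε ta tb ea eb ec * wP 1 (cube3 K x) u := by
  have h3 := pos3_of_pos2 h2
  have h1 := pos1_of_pos2 h2
  obtain ⟨rfl, rfl, rfl⟩ | ⟨rfl, rfl, rfl⟩ | ⟨rfl, rfl, rfl⟩ | ⟨rfl, rfl, rfl⟩ | ⟨rfl, rfl, rfl⟩ |
    ⟨rfl, rfl, rfl⟩ := fin3_cases pa pb pc hd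
  · exact h3 n ta tb ea eb ec _ _ _ ha hb hc o ho K hK x u
  · rw [prE_comm]; exact h3 n tb ta eb ea ec _ _ _ hb ha hc o ho K hK x u
  · exact h2 n ta tb ea ec eb _ _ _ ha hb hc o ho K hK x u
  · rw [prE_comm]; exact h2 n tb ta eb ec ea _ _ _ hb ha hc o ho K hK x u
  · exact h1 n ta tb ec ea eb _ _ _ ha hb hc o ho K hK x u
  · rw [prE_comm]; exact h1 n tb ta ec eb ea _ _ _ hb ha hc o ho K hK x u

theorem pos_ex : ∀ i a b c : Fin 4, [i, a, b, c].Nodup → ∃ pa pb pc : Fin 3,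
    [pa, pb, pc].Nodup ∧ jf i pa = a ∧ jf i pb = b ∧ jf i pc = c := by
  decide

/-- the price with the constants of `CmpSt` -/
theorem prE_smul {T ε ta tb ea eb ec : ℝ} (hT : 0 < T) (hta : 0 ≤ ta) (htb : 0 ≤ tb) (hea : 0 ≤ ea)
    (heb : 0 ≤ eb) (hec : 0 ≤ ec) :
    prE ε (T * ta) (T * tb) (T ^ 2 * ea) (T ^ 2 * eb) (T * ec) =
      T ^ (5 / 2 : ℝ) * prE ε ta tb ea eb ec := by
  unfold prE
  have e1 : T * ta * (T * tb) = T ^ (2 : ℝ) * (ta * tb) := by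
    rw [show (2 : ℝ) = ((2 : ℕ) : ℝ) by norm_num, Real.rpow_natCast]; ring
  have e2 : T ^ 2 * ea * (T ^ 2 * eb) = T ^ (4 : ℝ) * (ea * eb) := by
    rw [show (4 : ℝ) = ((4 : ℕ) : ℝ) by norm_num, Real.rpow_natCast]; ring
  rw [e1, e2, Real.mul_rpow (x := T ^ (2 : ℝ)) (by positivity) (by positivity),
    Real.mul_rpow (x := T ^ (4 : ℝ)) (by positivity) (by positivity), Real.mul_rpow hT.le hec,
    ← Real.rpow_mul hT.le, ← Real.rpow_mul hT.le]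
  have e3 : T ^ (5 / 2 : ℝ) =
      T ^ (2 * (1 / 2 - ε)) * T ^ (4 * (1 / 4 + ε / 2)) * T ^ (1 / 2 : ℝ) := by
    rw [← Real.rpow_add hT, ← Real.rpow_add hT]
    congr 1
    ring
  rw [e3]
  ring

/-- **EN8: the cost in the pair weight, all roles.**  `i` the role, `a b` the two uniform faces,
`c` the face with bounded energy only. -/
theorem costR_en {c0 : ℕ} {T C ε : ℝ} (hT0 : 0 < T) (hT : CmpSt c0 T) (h2 : Pos2 C ε 52) {σ : ℤ}
    {al : ℕ → ℤ → Prop} (hal : Alv c0 σ al) {n : ℕ} {f : Fin 4 → ℤ → ℝ} {i a b c : Fin 4}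
    (hd : [i, a, b, c].Nodup) {ta tb ea eb ec : ℝ} (hta : 0 ≤ ta) (htb : 0 ≤ tb)
    (hta2 : ta ^ 2 ≤ ea) (htb2 : tb ^ 2 ≤ eb) (hec : 0 ≤ ec)
    (Ua : USl c0 σ al n (fc a) ta (f a)) (Ub : USl c0 σ al n (fc b) tb (f b))
    (Ea : ESl c0 σ al n ea (f a)) (Eb : ESl c0 σ al n eb (f b)) (Ec : ESl c0 σ al n ec (f c))
    {o : ℤ} (ho : o = 1 ∨ o = -1) {K : ℕ} (hK : K ≤ n) :
    CostR i o K (C * T ^ (5 / 2 : ℝ) * prE ε ta tb ea eb ec) (fun K p u => wP 1 (cube3 K p) u)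
      (fun k _ j => kl al (f j) k) := by
  rw [costR_iff]
  intro x u
  obtain ⟨pa, pb, pc, hp, rfl, rfl, rfl⟩ := pos_ex i a b c hd
  have hea : 0 ≤ ea := (sq_nonneg ta).trans hta2
  have heb : 0 ≤ eb := (sq_nonneg tb).trans htb2
  have ga := cf_good i pa
  have gb := cf_good i pb
  have gc := cf_good i pc
  have ha := (hT σ al hal n (cf i pa) ga.1 ga.2.1 ga.2.2.1 ga.2.2.2.1 ga.2.2.2.2.1 ga.2.2.2.2.2 ea
    (f (jf i pa)) hea Ea).2 ta hta hta2 (usl_cf i pa Ua)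
  have hb := (hT σ al hal n (cf i pb) gb.1 gb.2.1 gb.2.2.1 gb.2.2.2.1 gb.2.2.2.2.1 gb.2.2.2.2.2 eb
    (f (jf i pb)) heb Eb).2 tb htb htb2 (usl_cf i pb Ub)
  have hc := (hT σ al hal n (cf i pc) gc.1 gc.2.1 gc.2.2.1 gc.2.2.2.1 gc.2.2.2.2.1 gc.2.2.2.2.2 ec
    (f (jf i pc)) hec Ec).1
  have h := cos0_all (F := sf al f i) h2 hp ha hb hc ho hK x u
  rw [prE_smul hT0 hta htb hea heb hec] at h
  refine h.trans (le_of_eq ?_)
  ring

end

end Vale.Agent.P141.H414
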