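import Vale.Agent.P141.H48.ENdefs
import Vale.Agent.P141.H347.TrP

/-!
# P141, line W, squad EN, module EN7: the other two positions of the `L²` slot

`pos3_of_pos2`, `pos1_of_pos2`: the transpositions `x₂ ↔ x₃` and `x₁ ↔ x₂` of the local form; the
slots only see the transposition of their last two variables, the slicing variable stays first.
-/

namespace Vale.Agent.P141.H414

open Finset Vale.Agent.P141.PL Vale.Agent.P141.H48
open Vale.Agent.P141.PL.H315 (cube3 atm Tri)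
open Vale.Agent.P141.PL.H560 (cbs bx0)
open Vale.Agent.P141.PL.H321 (t12 t23 u12 u23)
open Vale.Agent.P141.H922 (pw3 wP)
open Vale.Agent.P141.H347.Tr (pw3_t12 pw3_t23)

noncomputable section

open scoped Classical

/-! ### The weight and the sums over the subcubes -/

theorem wP_t12 (δ : ℝ) (K : ℕ) (p : Pt) (u : Tri) :
    wP δ (cube3 K (t12 p)) (u12 u) = wP δ (cube3 K p) u := by
  unfold wP
  rw [pw3_t12, H315.card_cube3, H315.card_cube3]

theorem wP_t23 (δ : ℝ) (K : ℕ) (p : Pt) (u : Tri) :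
    wP δ (cube3 K (t23 p)) (u23 u) = wP δ (cube3 K p) u := by
  unfold wP
  rw [pw3_t23, H315.card_cube3, H315.card_cube3]

theorem mem_cbs {K k : ℕ} {M m : Pt} : m ∈ cbs K M k ↔
    m.1 ∈ iv (K - k) M.1 ∧ m.2.1 ∈ iv (K - k) M.2.1 ∧ m.2.2 ∈ iv (K - k) M.2.2 := by
  unfold cbs; rw [mem_product, mem_product]

theorem mem_cbs_t12 {K k : ℕ} {M m : Pt} : t12 m ∈ cbs K (t12 M) k ↔ m ∈ cbs K M k := by
  rw [mem_cbs, mem_cbs]; simp only [t12]; tauto

theorem mem_cbs_t23 {K k : ℕ} {M m : Pt} : t23 m ∈ cbs K (t23 M) k ↔ m ∈ cbs K M k := by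
  rw [mem_cbs, mem_cbs]; simp only [t23]; tauto

theorem sum_cbs_t12 (K k : ℕ) (M : Pt) (f : Pt → ℝ) :
    ∑ m ∈ cbs K M k, f (t12 m) = ∑ m ∈ cbs K (t12 M) k, f m := by
  refine sum_bij' (fun q _ => t12 q) (fun q _ => t12 q) ?_ ?_ ?_ ?_ ?_
  · intro q hq; exact mem_cbs_t12.mpr hq
  · intro q hq
    have : t12 (t12 q) ∈ cbs K (t12 M) k := hq
    exact mem_cbs_t12.mp this
  · intro q _; rfl
  · intro q _; rfl
  · intro q _; rfl

theorem sum_cbs_t23 (K k : ℕ) (M : Pt) (f : Pt → ℝ) :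
    ∑ m ∈ cbs K M k, f (t23 m) = ∑ m ∈ cbs K (t23 M) k, f m := by
  refine sum_bij' (fun q _ => t23 q) (fun q _ => t23 q) ?_ ?_ ?_ ?_ ?_
  · intro q hq; exact mem_cbs_t23.mpr hq
  · intro q hq
    have : t23 (t23 q) ∈ cbs K (t23 M) k := hq
    exact mem_cbs_t23.mp this
  · intro q _; rfl
  · intro q _; rfl
  · intro q _; rfl

/-! ### The slots under the transposition of the last two variables -/

/-- the box form of a slot with the last two variables exchanged -/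
theorem BSl.s23 {n : ℕ} {e cP : ℝ} {F : ℕ → Pt → ℝ} {Q : ℕ → Pt → Prop} (h : BSl n e cP F Q) :
    BSl n e cP (fun k => s23 (F k)) (fun k m => Q k (t23 m)) where
  agree k h1 hk m hQ y hy := by
    refine h.agree k h1 hk (t23 m) hQ (t23 y) ?_
    rw [mem_cb] at hy ⊢
    rw [← hy]; rfl
  pack x0 K hK r s := by
    refine le_trans (le_of_eq ?_) (h.pack x0 K hK s r)
    refine sum_congr rfl fun k _ => ?_
    rw [sum_comm]
    rfl
  l0 k hk m x y := h.l0 k hk m y x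
  l1 k hk m z y := h.l2 k hk m z y
  l2 k hk m z x := h.l1 k hk m z x

theorem BUn.s23 {n : ℕ} {t : ℝ} {F : ℕ → Pt → ℝ} (h : BUn n t F) :
    BUn n t (fun k => s23 (F k)) := by
  intro k hk q u
  have h1 := h k hk (t23 q) (u23 u)
  rw [wP_t23, ← H321.sum_cube_t23] at h1
  refine le_trans (le_of_eq ?_) h1
  congr 1
  refine sum_congr rfl fun y _ => ?_
  show F (k + 1) (t23 y) * _ = F (k + 1) (t23 y) * _
  rw [H321.atm_t23]; rfl

theorem US.s23 {n : ℕ} {t e cP : ℝ} {F : ℕ → Pt → ℝ} (h : US n t e cP F) :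
    US n t e cP (fun k => s23 (F k)) := by
  obtain ⟨h1, h2, h3, Q, h4⟩ := h
  exact ⟨h1, h2, BUn.s23 h3, _, BSl.s23 h4⟩

theorem ES.s23 {n : ℕ} {e cP : ℝ} {F : ℕ → Pt → ℝ} (h : ES n e cP F) :
    ES n e cP (fun k => s23 (F k)) := by
  obtain ⟨h1, Q, h4⟩ := h
  exact ⟨h1, _, BSl.s23 h4⟩

/-! ### The cost under the transpositions -/

theorem cos0_t23 (o : ℤ) (K : ℕ) (x : Pt) (u : Tri) (F1 F2 F3 : ℕ → Pt → ℝ) :
    cos0 o K (t23 x) (u23 u) (fun k => s23 (F1 k)) F3 F2 = cos0 o K x u F1 F2 F3 := by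
  unfold cos0
  refine sum_congr rfl fun k _ => ?_
  congr 1
  have e1 : cx K (t23 x) = t23 (cx K x) := rfl
  rw [e1, ← sum_cbs_t23]
  refine sum_congr rfl fun m _ => ?_
  have e2 : atm (u23 u) = s23 (atm u) := funext fun q => (H321.atm_t23 u q).symm
  have e3 : bx0 o (t23 m) = ((bx0 o m).1, (bx0 o m).2.1, (bx0 o m).2.2.2, (bx0 o m).2.2.1) := by
    unfold bx0 t23
    ext <;> simp
    ring
  rw [e2, e3, loc_swap23]

theorem cos0_t12 (o : ℤ) (K : ℕ) (x : Pt) (u : Tri) (F1 F2 F3 : ℕ → Pt → ℝ) :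
    cos0 o K (t12 x) (u12 u) F2 F1 (fun k => s23 (F3 k)) = cos0 o K x u F1 F2 F3 := by
  unfold cos0
  refine sum_congr rfl fun k _ => ?_
  congr 1
  have e1 : cx K (t12 x) = t12 (cx K x) := rfl
  rw [e1, ← sum_cbs_t12]
  refine sum_congr rfl fun m _ => ?_
  have e2 : atm (u12 u) = s12 (atm u) := funext fun q => (H321.atm_t12 u q).symm
  have e3 : bx0 o (t12 m) = ((bx0 o m).1, (bx0 o m).2.2.1, (bx0 o m).2.1, (bx0 o m).2.2.2) := by
    unfold bx0 t12
    ext <;> simp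
    ring
  rw [e2, e3, loc_swap12]

/-! ### The two positions -/

/-- **EN7**: the `L²` slot in the position `3`. -/
theorem pos3_of_pos2 {C ε cP : ℝ} (h : Pos2 C ε cP) : Pos3 C ε cP := by
  intro n t1 t2 e1 e2 e3 F1 F2 F3 h1 h2 h3 o ho K hK x u
  have h4 := h n t1 t2 e1 e3 e2 (fun k => s23 (F1 k)) F3 F2 (US.s23 h1) h2 h3 o ho K hK (t23 x)
    (u23 u)
  rwa [cos0_t23, wP_t23] at h4

/-- **EN7**: the `L²` slot in the position `1`. -/
theorem pos1_of_pos2 {C ε cP : ℝ} (h : Pos2 C ε cP) : Pos1 C ε cP := by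
  intro n t2 t3 e1 e2 e3 F1 F2 F3 h2 h3 h1 o ho K hK x u
  have h4 := h n t2 t3 e2 e1 e3 F2 F1 (fun k => s23 (F3 k)) h2 (US.s23 h3) h1 o ho K hK (t12 x)
    (u12 u)
  rwa [cos0_t12, wP_t12] at h4

end

end Vale.Agent.P141.H414
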