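import Vale.Agent.P141.H414.En8
import Vale.Agent.P141.H444.PayS

/-!
# P141, line W, squad EN: the output in the letters of the frame

`enOut_of`: `EnOut` (H444) from `Pos2` and `CmpSt 7`; `enL_of`: the level one.
-/

namespace Vale.Agent.P141.H414

open Vale.Agent.P141.H48 (Pos2 CmpSt)
open Vale.Agent.P141.H444 (EnOut EnL enL_of_en)

/-- **The output of EN.** -/
theorem enOut_of {T C ε : ℝ} (hT0 : 0 < T) (hT : CmpSt 7 T) (h2 : Pos2 C ε 52) :
    EnOut (C * T ^ (5 / 2 : ℝ)) ε := by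
  intro σ al hal n f i a b c hd ta ea tb eb ec hta hta2 htb htb2 hec Ea Ua Eb Ub Ec o ho K hK
  exact costR_en hT0 hT h2 hal hd hta htb hta2 htb2 hec Ua Ub Ea Eb Ec ho hK

/-- The output of EN at the level one. -/
theorem enL_of {T C ε : ℝ} (hT0 : 0 < T) (hT : CmpSt 7 T) (h2 : Pos2 C ε 52) :
    EnL (C * T ^ (5 / 2 : ℝ) * (2 ^ 7 * √(2 ^ 7))) :=
  enL_of_en (enOut_of hT0 hT h2)

end Vale.Agent.P141.H414
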